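import Mathlib

/-!
# P014U.Ir: exponential polynomials over the `p`-adic integers (helper6)
-/

set_option linter.all false

open scoped Classical

noncomputable section

namespace Vale.Agent.P014U.Ir

open Polynomial Finset

variable {p : ℕ} [hp : Fact p.Prime]

/-- binomial expansions with more and more divisible coefficients -/
def Ex (n : ℕ) (f : ℕ → ℤ_[p]) : Prop := ∃ φ : ℕ → ℤ_[p], (∀ k, (p : ℤ_[p]) ^ (n * k) ∣ φ k) ∧
  ∀ y K, y < K → f y = ∑ k ∈ range K, φ k * (y.choose k : ℕ)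

theorem Ex.pow {n : ℕ} {w : ℤ_[p]} (h : (p : ℤ_[p]) ^ n ∣ w - 1) : Ex n fun y => w ^ y := by
  refine ⟨fun k => (w - 1) ^ k, fun k => pow_mul (p : ℤ_[p]) n k ▸ pow_dvd_pow_of_dvd h k,
    fun y K hK => ?_⟩
  have := add_pow (w - 1) 1 y
  simp only [sub_add_cancel, one_pow, mul_one] at this
  refine this.trans (sum_subset (range_subset_range.2 hK) fun k _ hk => ?_)
  rw [Nat.choose_eq_zero_of_lt (by simpa using hk), Nat.cast_zero, mul_zero]

theorem Ex.add {n : ℕ} {f g : ℕ → ℤ_[p]} (h : Ex n f) (h' : Ex n g) : Ex n fun y => f y + g y := by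
  obtain ⟨φ, a, b⟩ := h
  obtain ⟨ψ, c, d⟩ := h'
  refine ⟨fun k => φ k + ψ k, fun k => dvd_add (a k) (c k), fun y K hK => ?_⟩
  simp only [b y K hK, d y K hK, add_mul, sum_add_distrib]

theorem Ex.mul {n : ℕ} {f : ℕ → ℤ_[p]} (h : Ex n f) (c : ℤ_[p]) : Ex n fun y => c * f y := by
  obtain ⟨φ, a, b⟩ := h
  refine ⟨fun k => c * φ k, fun k => (a k).mul_left c, fun y K hK => ?_⟩
  simp only [b y K hK, mul_sum, mul_assoc]

theorem Ex.sum {n : ℕ} {ι : Type} (s : Finset ι) {f : ι → ℕ → ℤ_[p]} (h : ∀ i, Ex n (f i)) :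
    Ex n fun y => ∑ i ∈ s, f i y := by
  induction s using Finset.induction_on with
  | empty => exact ⟨0, fun k => dvd_zero _, fun y K _ => by simp⟩
  | insert a s ha ih => simpa only [sum_insert ha] using (h a).add ih

theorem dvd_mul_one {R : Type} [CommRing R] {e u v : R} (h : e ∣ u - 1) (h' : e ∣ v - 1) :
    e ∣ u * v - 1 := by
  rw [show u * v - 1 = (u - 1) * v + (v - 1) by ring]
  exact dvd_add (h.mul_right v) h'

/-- the monomials in the product and the sum -/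
def mo {R : Type} [CommRing R] (i j : ℕ) (u v : R) : R := (u * v) ^ i * (u + v) ^ j

theorem ex_mo {n : ℕ} {V W : ℤ_[p]} (hV : (p : ℤ_[p]) ^ n ∣ V - 1) (hW : (p : ℤ_[p]) ^ n ∣ W - 1)
    (a b : ℤ_[p]) (i j : ℕ) : Ex n fun y => mo i j (a * V ^ y) (b * W ^ y) := by
  have key : ∀ w : ℤ_[p], (p : ℤ_[p]) ^ n ∣ w - 1 →
      Ex n fun y => w ^ y * (a * V ^ y + b * W ^ y) ^ j := by
    induction j with
    | zero => exact fun w hw => by simpa using Ex.pow hw
    | succ j ih =>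
      intro w hw
      have := ((ih _ (dvd_mul_one hw hV)).mul a).add ((ih _ (dvd_mul_one hw hW)).mul b)
      refine (congrArg (Ex n) (funext fun y => ?_)).mp this
      rw [mul_pow, mul_pow, pow_succ]
      ring
  have := (key ((V * W) ^ i) ((dvd_mul_one hV hW).trans (by
    simpa using sub_dvd_pow_sub_pow (V * W) 1 i))).mul ((a * b) ^ i)
  refine (congrArg (Ex n) (funext fun y => ?_)).mp this
  rw [mo, ← pow_mul, mul_comm i, pow_mul, ← mul_assoc, ← mul_pow, mul_pow V]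
  congr 2
  ring

theorem mo_dvd {R : Type} [CommRing R] {e u v u' v' : R} (h : e ∣ u - u') (h' : e ∣ v - v')
    (i j : ℕ) : e ∣ mo i j u v - mo i j u' v' := by
  rw [← Ideal.mem_span_singleton, ← Ideal.Quotient.eq] at h h' ⊢
  simp only [mo, map_mul, map_pow, map_add, h, h']

/-- the auxiliary function -/
theorem aux {ι : Type} [Fintype ι] {n a τ : ℕ} (hn : 0 < n) (h : τ * τ < a * Fintype.card ι)
    {f : ι → ℕ → ℤ_[p]} (hf : ∀ κ, Ex n (f κ)) : ∃ c : ι → ℤ, c ≠ 0 ∧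
      (∀ κ, |c κ| ≤ p ^ (n * a)) ∧ ∀ y, (p : ℤ_[p]) ^ (n * τ) ∣ ∑ κ, c κ * f κ y := by
  choose φ h1 h2 using hf
  obtain ⟨c, c', hc, e⟩ := Fintype.exists_ne_map_eq_of_card_lt
    (fun (c : ι → Fin (p ^ (n * a))) (k : Fin τ) =>
      PadicInt.toZModPow (n * τ) (∑ κ, ((c κ : ℕ) : ℤ_[p]) * φ κ k)) (by
      simp only [Fintype.card_fun, ZMod.card, Fintype.card_fin, ← pow_mul]
      refine Nat.pow_lt_pow_right hp.out.one_lt ?_
      rw [mul_assoc, mul_assoc]
      exact Nat.mul_lt_mul_of_pos_left h hn)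
  refine ⟨fun κ => (c κ : ℕ) - (c' κ : ℕ), fun k => hc (funext fun κ => Fin.ext ?_), fun κ => ?_,
    fun y => ?_⟩
  · exact_mod_cast sub_eq_zero.1 (congrFun k κ)
  · have a1 : ((c κ : ℕ) : ℤ) < p ^ (n * a) := by exact_mod_cast (c κ).2
    have a2 : ((c' κ : ℕ) : ℤ) < p ^ (n * a) := by exact_mod_cast (c' κ).2
    change |((c κ : ℕ) : ℤ) - (c' κ : ℕ)| ≤ _
    rw [abs_le]
    omega
  · simp only [h2 _ y _ y.lt_succ_self, mul_sum, ← mul_assoc]
    rw [sum_comm]
    refine dvd_sum fun k _ => ?_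
    rw [← sum_mul]
    refine Dvd.dvd.mul_right ?_ _
    by_cases hk : k < τ
    · have := congrFun e ⟨k, hk⟩
      rw [← sub_eq_zero, ← map_sub, ← RingHom.mem_ker, PadicInt.ker_toZModPow,
        Ideal.mem_span_singleton, ← sum_sub_distrib] at this
      simpa only [Int.cast_sub, Int.cast_natCast, sub_mul] using this
    · exact dvd_sum fun κ _ => ((pow_dvd_pow _ (Nat.mul_le_mul_left n (not_lt.1 hk))).trans
        (h1 κ k)).mul_left _

theorem lag {R τ : Type} [CommRing R] (s : Finset τ) (y : τ → R) {d e : R}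
    (hd : ∀ t ∈ s, ∀ j ∈ s, t ≠ j → y t - y j ∣ d) {G : R[X]} (hG : G.degree < s.card)
    (he : ∀ t ∈ s, e ∣ G.eval (y t)) (x : R) : e ∣ d ^ s.card * G.eval x := by
  induction s using Finset.induction_on generalizing G with
  | empty =>
    rw [card_empty, Nat.cast_zero, Nat.WithBot.lt_zero_iff, degree_eq_bot] at hG
    simp [hG]
  | insert a s ha ih =>
    nontriviality R
    have e1 := X_sub_C_mul_divByMonic_eq_sub_modByMonic G (y a)
    rw [modByMonic_X_sub_C_eq_C_eval] at e1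
    have e2 : ∀ x, (x - y a) * (G /ₘ (X - C (y a))).eval x = G.eval x - G.eval (y a) := fun x => by
      simpa using congrArg (eval x) e1
    have ea := he a (mem_insert_self _ _)
    have := ih (fun t ht j hj => hd t (mem_insert_of_mem ht) j (mem_insert_of_mem hj))
      (G := C d * (G /ₘ (X - C (y a)))) ?_ fun t ht => ?_
    · rw [eval_mul, eval_C, ← mul_assoc, ← pow_succ] at this
      rw [card_insert_of_notMem ha, eq_add_of_sub_eq (e2 x).symm, mul_add, mul_left_comm]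
      exact dvd_add (this.mul_left _) (ea.mul_left _)
    · rw [← smul_eq_C_mul]
      refine (degree_smul_le _ _).trans_lt ?_
      by_cases h0 : G /ₘ (X - C (y a)) = 0
      · rw [h0, degree_zero]
        exact WithBot.bot_lt_coe _
      rw [degree_eq_natDegree h0, natDegree_divByMonic _ (monic_X_sub_C _), natDegree_X_sub_C,
        Nat.cast_lt]
      have g0 : G ≠ 0 := fun k => h0 (by rw [k, zero_divByMonic])
      have g1 : G.natDegree ≠ 0 := fun k => h0 ((divByMonic_eq_zero_iff (monic_X_sub_C _)).2 (by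
        rw [degree_X_sub_C, degree_eq_natDegree g0, k]; exact zero_lt_one))
      rw [degree_eq_natDegree g0, Nat.cast_lt, card_insert_of_notMem ha] at hG
      omega
    · obtain ⟨c, hc⟩ := hd t (mem_insert_of_mem ht) a (mem_insert_self _ _) fun k => ha (k ▸ ht)
      rw [eval_mul, eval_C, hc, mul_right_comm, e2]
      exact (dvd_sub (he t (mem_insert_of_mem ht)) ea).mul_right _

theorem fac (h2 : p ≠ 2) {k : ℕ} {φ : ℤ_[p]} (h : (p : ℤ_[p]) ^ k ∣ φ) :
    ∃ e, φ = k.factorial * e ∧ (p : ℤ_[p]) ^ (k / 2) ∣ e := by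
  obtain ⟨c, rfl⟩ := h
  obtain ⟨v, u, hu, e⟩ := Nat.exists_eq_pow_mul_and_not_dvd k.factorial_ne_zero p hp.out.ne_one
  have h3 : 3 ≤ p := lt_of_le_of_ne hp.out.two_le h2.symm
  have hv : 2 * v ≤ k := by
    have := sub_one_mul_padicValNat_factorial (p := p) k
    have h4 : v ≤ padicValNat p k.factorial :=
      (padicValNat_dvd_iff_le k.factorial_ne_zero).1 ⟨u, e⟩
    have : 2 * v ≤ (p - 1) * padicValNat p k.factorial := Nat.mul_le_mul (by omega) h4
    omega
  obtain ⟨w, hw⟩ : IsUnit (u : ℤ_[p]) := PadicInt.isUnit_iff.2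
    (PadicInt.norm_natCast_eq_one_iff.2 ((Nat.Prime.coprime_iff_not_dvd hp.out).2 hu))
  refine ⟨p ^ (k - v) * c * w⁻¹, ?_, ((pow_dvd_pow _ (by omega)).mul_right _).mul_right _⟩
  rw [e, Nat.cast_mul, Nat.cast_pow, ← hw, show k = v + (k - v) by omega, pow_add,
    Nat.add_sub_cancel_left]
  linear_combination -((p : ℤ_[p]) ^ v * p ^ (k - v) * c) * w.mul_inv

/-- the lemma of Schwarz -/
theorem schwarz (h2 : p ≠ 2) {f : ℕ → ℤ_[p]} (hf : Ex 1 f) {τ : Type} (s : Finset τ) (y : τ → ℕ)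
    {d : ℤ_[p]} (h0 : d ≠ 0) (hd : ∀ t ∈ s, ∀ j ∈ s, t ≠ j → (y t - y j : ℤ_[p]) ∣ d)
    (he : ∀ t ∈ s, d ^ s.card * p ^ (s.card / 2) ∣ f (y t)) (x : ℕ) :
    (p : ℤ_[p]) ^ (s.card / 2) ∣ f x := by
  obtain ⟨φ, h3, h4⟩ := hf
  choose e h5 h6 using fun k => fac h2 (k := k) (by simpa only [one_mul] using h3 k)
  choose e' h7 using fun k => (pow_dvd_pow (p : ℤ_[p])
    (Nat.div_le_div_right (Nat.le_add_right s.card k))).trans (h6 (s.card + k))
  set K := x + s.sup y + 1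
  let G₀ : ℤ_[p][X] := ∑ k ∈ range s.card, C (e k) * descPochhammer ℤ_[p] k
  let G₁ : ℤ_[p][X] := ∑ k ∈ range K, C (e' k) * descPochhammer ℤ_[p] (s.card + k)
  let Q : ℤ_[p][X] := ∏ t ∈ s, (X - C (y t : ℤ_[p]))
  have hQ : Q.Monic := monic_prod_of_monic _ _ fun t _ => monic_X_sub_C _
  have k1 : ∀ z : ℕ, z < K → f z = G₀.eval (z : ℤ_[p]) + p ^ (s.card / 2) * G₁.eval (z : ℤ_[p]) :=
    fun z hz => by
      rw [h4 z (s.card + K) (by omega), sum_range_add, eval_finset_sum, eval_finset_sum, mul_sum]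
      congr 1 <;> refine sum_congr rfl fun k _ => ?_ <;>
        rw [eval_mul, eval_C, descPochhammer_eval_eq_descFactorial,
          Nat.descFactorial_eq_factorial_mul_choose, h5, Nat.cast_mul]
      · ring
      · rw [h7]; ring
  have k2 : ∀ z : ℤ_[p], G₁.eval z = (G₁ %ₘ Q).eval z + Q.eval z * (G₁ /ₘ Q).eval z := fun z => by
    rw [← eval_mul, ← eval_add, modByMonic_add_div]
  have k3 := lag s (fun t => (y t : ℤ_[p])) hd (G := G₀ + C ((p : ℤ_[p]) ^ (s.card / 2)) * (G₁ %ₘ Q))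
    (e := d ^ s.card * p ^ (s.card / 2)) ?_ (fun t ht => ?_) x
  · rw [mul_dvd_mul_iff_left (pow_ne_zero _ h0), eval_add, eval_mul, eval_C] at k3
    rw [k1 x (by omega), k2, mul_add, ← add_assoc]
    exact dvd_add k3 (dvd_mul_right _ _)
  · refine (degree_add_le _ _).trans_lt (max_lt ?_ ?_)
    · refine (degree_sum_le _ _).trans_lt ((Finset.sup_lt_iff (WithBot.bot_lt_coe _)).2
        fun k hk => ?_)
      rw [← smul_eq_C_mul]
      refine ((degree_smul_le _ _).trans degree_le_natDegree).trans_lt ?_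
      rw [descPochhammer_natDegree, Nat.cast_lt]
      exact mem_range.1 hk
    · rw [← smul_eq_C_mul]
      refine ((degree_smul_le _ _).trans_lt (degree_modByMonic_lt _ hQ)).trans_eq ?_
      rw [degree_eq_natDegree hQ.ne_zero, natDegree_finset_prod_X_sub_C_eq_card]
  · have := he t ht
    have h8 := le_sup (f := y) ht
    rw [k1 _ (by omega), k2, show Q.eval (y t : ℤ_[p]) = 0 by
      rw [eval_prod]; exact prod_eq_zero ht (by simp), zero_mul, add_zero] at this
    rwa [eval_add, eval_mul, eval_C]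

theorem vdm {R σ : Type} [CommRing R] [DecidableEq σ] (s : Finset σ) (w c : σ → R) {e : R}
    (h : ∀ y, e ∣ ∑ r ∈ s, c r * w r ^ y) {r₀ : σ} (h0 : r₀ ∈ s) :
    e ∣ c r₀ * ∏ r ∈ s.erase r₀, (w r₀ - w r) := by
  have : e ∣ ∑ r ∈ s, c r * (∏ r ∈ s.erase r₀, (X - C (w r))).eval (w r) := by
    simp only [eval_eq_sum_range, mul_sum]
    rw [sum_comm]
    refine dvd_sum fun k _ => ?_
    simp only [mul_left_comm (c _), ← mul_sum]
    exact (h k).mul_left _
  rw [sum_eq_single_of_mem r₀ h0 fun r hr k => by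
    rw [eval_prod, prod_eq_zero (mem_erase.2 ⟨k, hr⟩) (by simp), mul_zero]] at this
  simpa only [eval_prod, eval_sub, eval_X, eval_C] using this

theorem dvd_pp {d : ℤ_[p]} (h : d ≠ 0) : ∃ k, d ∣ (p : ℤ_[p]) ^ k :=
  ⟨d.valuation, ((PadicInt.unitCoeff h)⁻¹ : ℤ_[p]ˣ), by
    rw [Units.eq_mul_inv_iff_mul_eq, mul_comm, ← PadicInt.unitCoeff_spec h]⟩

/-- independence, modulo a power of `p` -/
theorem ind {V W : ℤ_[p]} (hi : ∀ a b a' b', V ^ a * W ^ b = V ^ a' * W ^ b' → a = a' ∧ b = b')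
    (L : ℕ) : ∃ h, ∀ c : Fin L × Fin L → ℤ_[p],
      (∀ y, (p : ℤ_[p]) ^ h ∣ ∑ κ, c κ * mo κ.1 κ.2 (V ^ y) (W ^ y)) → ∀ κ, (p : ℤ_[p]) ∣ c κ := by
  let M : Fin L × Fin L → MvPolynomial (Fin 2) ℤ_[p] := fun κ =>
    mo κ.1 κ.2 (MvPolynomial.X 0) (MvPolynomial.X 1)
  let s := univ.biUnion fun κ => (M κ).support
  let w : (Fin 2 →₀ ℕ) → ℤ_[p] := fun r => V ^ r 0 * W ^ r 1
  obtain ⟨h, hh⟩ := dvd_pp (d := ∏ r₀ ∈ s, ∏ r ∈ s.erase r₀, (w r₀ - w r))
    (prod_ne_zero_iff.2 fun r₀ _ => prod_ne_zero_iff.2 fun r hr k => (mem_erase.1 hr).1 (by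
      obtain ⟨a, b⟩ := hi _ _ _ _ (sub_eq_zero.1 k)
      ext i
      fin_cases i
      exacts [a.symm, b.symm]))
  refine ⟨h + 1, fun c hc => ?_⟩
  let P := ∑ κ, c κ • M κ
  have hP : P.support ⊆ s := MvPolynomial.support_sum.trans
    (biUnion_mono fun κ _ => MvPolynomial.support_smul)
  have ev : ∀ {k : Type} [CommRing k] (ρ : ℤ_[p] →+* k) (u v : k), ∑ κ, ρ (c κ) * mo κ.1 κ.2 u v =
      ∑ r ∈ s, ρ (P.coeff r) * (u ^ r 0 * v ^ r 1) := fun ρ u v => by
    have e1 : MvPolynomial.eval₂ ρ ![u, v] P = _ := MvPolynomial.eval₂_eq' ρ _ P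
    rw [sum_subset hP fun r _ hr => by
      rw [MvPolynomial.notMem_support_iff.1 hr, map_zero, zero_mul]] at e1
    simp only [Fin.prod_univ_two, Matrix.cons_val_zero, Matrix.cons_val_one] at e1
    rw [← e1]
    simp [P, M, mo, MvPolynomial.eval₂_sum, MvPolynomial.smul_eq_C_mul]
  have h1 : ∀ r ∈ s, (p : ℤ_[p]) ∣ P.coeff r := fun r hr => by
    have := vdm s w P.coeff (e := (p : ℤ_[p]) ^ (h + 1)) (fun y => by
      have := hc y
      rw [show ∑ κ, c κ * mo κ.1 κ.2 (V ^ y) (W ^ y) = _ from ev (RingHom.id _) _ _] at this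
      simpa only [w, RingHom.id_apply, mul_pow, ← pow_mul, mul_comm y] using this) hr
    have := this.trans (mul_dvd_mul_left _ ((dvd_prod_of_mem _ hr).trans hh))
    rwa [pow_succ', mul_dvd_mul_iff_right (pow_ne_zero _ (Nat.cast_ne_zero.2 hp.out.ne_zero))]
      at this
  let k := AlgebraicClosure (ZMod p)
  let ρ : ℤ_[p] →+* k := (algebraMap (ZMod p) k).comp PadicInt.toZMod
  have hρ : ∀ z, ρ z = 0 ↔ (p : ℤ_[p]) ∣ z := fun z => by
    rw [RingHom.comp_apply, map_eq_zero, ← RingHom.mem_ker, PadicInt.ker_toZMod,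
      PadicInt.maximalIdeal_eq_span_p, Ideal.mem_span_singleton]
  have h2 : ∀ x z : k, ∑ i : Fin L, (∑ j : Fin L, ρ (c (i, j)) * z ^ (j : ℕ)) * x ^ (i : ℕ) = 0 :=
    fun x z => by
      obtain ⟨u, hu⟩ := IsAlgClosed.exists_root (C 1 * X ^ 2 + C (-z) * X + C x)
        (by rw [degree_quadratic one_ne_zero]; decide)
      have e1 : u * (z - u) = x := by
        simp only [IsRoot, eval_add, eval_mul, eval_C, eval_pow, eval_X] at hu
        linear_combination -hu
      have := ev ρ u (z - u)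
      rw [sum_eq_zero (s := s) fun r hr => by rw [(hρ _).2 (h1 r hr), zero_mul],
        Fintype.sum_prod_type] at this
      simp only [mo, e1, add_sub_cancel] at this
      rw [← this]
      refine sum_congr rfl fun i _ => ?_
      rw [sum_mul]
      exact sum_congr rfl fun j _ => by ring
  have hj : Function.Injective fun i : Fin L => Infinite.natEmbedding k i :=
    (Infinite.natEmbedding k).injective.comp Fin.val_injective
  exact fun κ => (hρ _).1 (congrFun (Matrix.eq_zero_of_forall_index_sum_mul_pow_eq_zero hj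
    fun j => congrFun (Matrix.eq_zero_of_forall_index_sum_mul_pow_eq_zero hj
      fun i => h2 _ _) κ.1) κ.2)

end Vale.Agent.P014U.Ir
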