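import Vale.Agent.P014U.Ir.An

/-!
# P014U.Ir: too many integer points on a `p`-adic analytic curve (helper6)
-/

set_option linter.all false

open scoped Classical

noncomputable section

namespace Vale.Agent.P014U.Ir

open Finset

theorem cnt {B q : ℕ} (h : 6 * B + 6 ≤ q) : B * q < Nat.primeCounting (q ^ 3) := by
  by_contra hc
  have h1 : (Nat.primeCounting (q ^ 3) : ℝ) ≤ B * q := by exact_mod_cast not_lt.1 hc
  have h2 : (6 * B + 6 : ℝ) ≤ q := by exact_mod_cast h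
  have hB : (0 : ℝ) ≤ B := B.cast_nonneg
  have h3 := Chebyshev.pi_ge (q ^ 3)
  push_cast at h3
  rw [div_le_iff₀ (Real.log_pos (one_lt_pow₀ (by linarith) three_ne_zero)), Real.log_pow] at h3
  have h4 : Real.log q ≤ q := (Real.log_le_sub_one_of_pos (by linarith)).trans (by linarith)
  have h5 : Real.log (q ^ 3 + 1) ≤ 3 * q := by
    have a := Real.log_le_log (x := q ^ 3 + 1) (y := (q + 1) ^ 3) (by positivity) (by nlinarith)
    have b := Real.log_le_sub_one_of_pos (x := q + 1) (by linarith)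
    rw [Real.log_pow] at a
    push_cast at a
    linarith
  have h6 := Real.log_two_gt_d9
  have h7 : (Nat.primeCounting (q ^ 3) : ℝ) * (((3 : ℕ) : ℝ) * Real.log q) ≤ B * q * (3 * q) :=
    mul_le_mul h1 (by push_cast; linarith) (mul_nonneg (by positivity) (Real.log_natCast_nonneg q))
      (by positivity)
  have h8 : (q : ℝ) ^ 3 * (1 / 2) ≤ q ^ 3 * Real.log 2 := by gcongr; linarith
  have h9 : (q : ℝ) ^ 2 * (6 * B + 6) ≤ q ^ 2 * q := by gcongr
  nlinarith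

variable {p : ℕ} [hp : Fact p.Prime]

theorem pw {U : ℤ_[p]} (hU : (p : ℤ_[p]) ∣ U - 1) (k : ℕ) : (p : ℤ_[p]) ^ k ∣ U ^ p ^ k - 1 :=
  (pow_dvd_pow _ k.le_succ).trans (by simpa using dvd_sub_pow_of_dvd_sub hU k)

/-- **the main estimate** -/
theorem core (h2 : p ≠ 2) {V W : ℤ_[p]} (hV : (p : ℤ_[p]) ∣ V - 1) (hW : (p : ℤ_[p]) ∣ W - 1)
    (hi : ∀ a b a' b', V ^ a * W ^ b = V ^ a' * W ^ b' → a = a' ∧ b = b') {s₀ m M : ℕ} (hm : m ≠ 0)
    (hM : m ≤ M) {v w : ℕ → ℤ_[p]} {z : ℕ → ℤ} (H : ∀ l : ℕ, l.Prime → s₀ < l →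
      v l * w l = l ^ m ∧ v l + w l = z l ∧ |z l| ≤ l ^ M ∧
        ∀ T, ∃ y, (p : ℤ_[p]) ^ T ∣ v l - V ^ y ∧ (p : ℤ_[p]) ^ T ∣ w l - W ^ y) : False := by
  obtain ⟨L, hL⟩ : ∃ L, L = 24 * M + 3 := ⟨_, rfl⟩
  obtain ⟨a, ha⟩ : ∃ a, a = 6 * M * L + 1 := ⟨_, rfl⟩
  obtain ⟨h, hh⟩ := ind hi L
  obtain ⟨n, hn⟩ : ∃ n, L * L + 6 * (2 * h + s₀ + 1) + 6 < p ^ n :=
    ⟨_, Nat.lt_pow_self hp.out.one_lt⟩
  have n0 : 0 < n := Nat.pos_of_ne_zero (by rintro rfl; rw [pow_zero] at hn; omega)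
  have p0 : (p : ℤ_[p]) ≠ 0 := Nat.cast_ne_zero.2 hp.out.ne_zero
  have hq : ∀ k, (p : ℤ) ^ (n * k) = (p ^ n : ℕ) ^ k := fun k => by rw [pow_mul, Nat.cast_pow]
  have hV' := pw hV n
  have hW' := pw hW n
  set q := p ^ n
  let s := (Nat.primesLE (q ^ 3)).filter (s₀ < ·)
  have hs : (range q).card * (2 * h) < s.card := by
    have a1 := cnt (B := 2 * h + s₀ + 1) (q := q) (by omega)
    have a2 := card_filter_add_card_filter_not (s := Nat.primesLE (q ^ 3)) (s₀ < ·)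
    have a3 : ((Nat.primesLE (q ^ 3)).filter fun l => ¬ s₀ < l).card ≤ (range (s₀ + 1)).card :=
      card_le_card fun l hl => mem_range.2 (Nat.lt_succ_of_le (not_lt.1 (mem_filter.1 hl).2))
    rw [Nat.primesLE_card_eq_primeCounting] at a2
    rw [card_range] at a3 ⊢
    have a4 : (s₀ + 1) * 1 ≤ (s₀ + 1) * q := Nat.mul_le_mul_left _ (by omega)
    change _ < ((Nat.primesLE (q ^ 3)).filter (s₀ < ·)).card
    nlinarith
  choose! y y1 y2 using fun l hl hl' => (H l hl hl').2.2.2 (n * (3 * M) * (2 * h + 1) + h + n * (2 * a))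
  obtain ⟨y₀, -, h3⟩ := exists_lt_card_fiber_of_mul_lt_card_of_maps_to (s := s) (t := range q)
    (f := fun l => y l % q) (fun l _ => mem_range.2 (Nat.mod_lt _ (by omega))) hs
  obtain ⟨A, hA, cA⟩ := exists_subset_card_eq h3.le
  have mA : ∀ l ∈ A, l.Prime ∧ s₀ < l ∧ (l : ℤ) ^ M ≤ q ^ (3 * M) ∧ (l : ℤ) ^ m ≤ q ^ (3 * M) ∧
      y₀ + q * (y l / q) = y l := fun l hl => by
    obtain ⟨a1, a2⟩ := mem_filter.1 (hA hl)
    obtain ⟨a3, a4⟩ := mem_filter.1 a1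
    obtain ⟨a5, a6⟩ := Nat.mem_primesLE.1 a3
    have a7 : (l : ℤ) ^ M ≤ q ^ (3 * M) := by
      rw [pow_mul]
      exact_mod_cast Nat.pow_le_pow_left a5 M
    exact ⟨a6, a4, a7, (pow_le_pow_right₀ (by exact_mod_cast a6.one_lt.le) hM).trans a7,
      a2 ▸ Nat.mod_add_div _ _⟩
  obtain ⟨c, c0, c1, c2⟩ := aux n0 (τ := 2 * a) (a := a) (ι := Fin L × Fin L) (by
    rw [Fintype.card_prod, Fintype.card_fin, show 2 * a * (2 * a) = a * (4 * a) by ring]
    exact Nat.mul_lt_mul_of_pos_left (by nlinarith) (by omega))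
    fun κ => ex_mo hV' hW' (V ^ y₀) (W ^ y₀) κ.1 κ.2
  have : Nonempty (Fin L) := ⟨⟨0, by omega⟩⟩
  obtain ⟨g, g1, g2⟩ := extract_gcd c univ_nonempty
  have k1 : ∀ (c : Fin L × Fin L → ℤ), ∀ l ∈ A,
      (p : ℤ_[p]) ^ (n * (3 * M) * (2 * h + 1) + h + n * (2 * a)) ∣
        ∑ κ, c κ * mo κ.1 κ.2 (V ^ y l) (W ^ y l) -
        (∑ κ, c κ * ((l ^ m) ^ (κ.1 : ℕ) * z l ^ (κ.2 : ℕ)) : ℤ) := fun c l hl => by
    obtain ⟨a1, a2, -⟩ := mA l hl
    obtain ⟨a3, a4, -⟩ := H l a1 a2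
    push_cast
    rw [← sum_sub_distrib, ← a3, ← a4]
    refine dvd_sum fun κ _ => ?_
    rw [← mul_sub]
    exact (mo_dvd (dvd_sub_comm.1 (y1 l a1 a2)) (dvd_sub_comm.1 (y2 l a1 a2)) _ _).mul_left _
  have k2 : ∀ l ∈ A, (∑ κ, g κ * ((l ^ m) ^ (κ.1 : ℕ) * z l ^ (κ.2 : ℕ)) : ℤ) = 0 := fun l hl => by
    obtain ⟨a1, a2, a3, a4, a5⟩ := mA l hl
    have b1 := c2 (y l / q)
    simp only [← pow_mul, ← pow_add, a5] at b1
    have b2 := dvd_sub b1 ((pow_dvd_pow _ (Nat.le_add_left _ _)).trans (k1 c l hl))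
    rw [sub_sub_cancel, PadicInt.pow_p_dvd_int_iff, hq] at b2
    have q1 : (1 : ℤ) ≤ q := by omega
    have b3 := Int.eq_zero_of_abs_lt_dvd b2 ((abs_sum_le_sum_abs _ _).trans_lt
      ((sum_le_card_nsmul _ _ ((q : ℤ) ^ a * ((q ^ (3 * M)) ^ L * (q ^ (3 * M)) ^ L))
        fun κ _ => ?_).trans_lt ?_))
    · simp only [fun κ => g1 κ (mem_univ κ), mul_assoc (univ.gcd c), ← mul_sum] at b3
      refine (mul_eq_zero.1 b3).resolve_left fun k => c0 (funext fun κ => ?_)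
      rw [g1 κ (mem_univ κ), k, zero_mul]
      rfl
    · rw [abs_mul, abs_mul, abs_pow, abs_pow (z l), abs_of_nonneg (a := (l : ℤ) ^ m) (by positivity)]
      refine mul_le_mul (hq a ▸ c1 κ) (mul_le_mul ?_ ?_ (by positivity) (by positivity))
        (by positivity) (by positivity)
      · exact (pow_le_pow_left₀ (by positivity) a4 _).trans
          (pow_le_pow_right₀ (one_le_pow₀ q1) κ.1.2.le)
      · exact (pow_le_pow_left₀ (abs_nonneg _) ((H l a1 a2).2.2.1.trans a3) _).trans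
          (pow_le_pow_right₀ (one_le_pow₀ q1) κ.2.2.le)
    · rw [card_univ, Fintype.card_prod, Fintype.card_fin, nsmul_eq_mul, ← pow_mul, ← pow_add,
        ← pow_add, show 2 * a = a + (3 * M * L + 3 * M * L) + 1 by rw [ha]; ring, pow_succ']
      exact mul_lt_mul_of_pos_right (by omega) (by positivity)
  have k3 := schwarz h2 (Ex.sum univ fun κ : Fin L × Fin L => (ex_mo (n := 1) (V := V) (W := W)
    (by rwa [pow_one]) (by rwa [pow_one]) 1 1 κ.1 κ.2).mul (g κ)) A y (d := p ^ (n * (3 * M))) (pow_ne_zero _ p0)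
    (fun t ht j hj e => ?_) fun l hl => ?_
  · rw [cA, Nat.mul_div_cancel_left _ two_pos] at k3
    simp only [one_mul] at k3
    have : (p : ℤ) ∣ univ.gcd g := dvd_gcd fun κ _ => by
      simpa using (PadicInt.pow_p_dvd_int_iff 1 (g κ)).1 (by simpa using hh (fun κ => g κ) k3 κ)
    rw [g2] at this
    exact hp.out.ne_one (Nat.dvd_one.1 (by exact_mod_cast this))
  · refine (ValuationRing.dvd_total _ _).resolve_right fun k => e ?_
    obtain ⟨a1, a2, -, a3, -⟩ := mA t ht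
    obtain ⟨b1, b2, -, b3, -⟩ := mA j hj
    have d1 : y j ≡ y t [MOD p ^ (n * (3 * M))] := Nat.modEq_iff_dvd.2 (by
      have := (PadicInt.pow_p_dvd_int_iff _ ((y t : ℤ) - y j)).1 (by simpa using k)
      simpa using this)
    have le : (p : ℤ_[p]) ^ (n * (3 * M)) ∣ p ^ (n * (3 * M) * (2 * h + 1) + h + n * (2 * a)) :=
      pow_dvd_pow _ (by rw [mul_add_one]; omega)
    have d2 := pw (dvd_mul_one hV hW) (n * (3 * M))
    have d3 := le.trans (y1 t a1 a2)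
    have d4 := le.trans (y2 t a1 a2)
    have d5 := le.trans (y1 j b1 b2)
    have d6 := le.trans (y2 j b1 b2)
    have d7 : (p : ℤ_[p]) ^ (n * (3 * M)) ∣ ((t ^ m - j ^ m : ℤ) : ℤ_[p]) := by
      push_cast
      rw [← (H t a1 a2).1, ← (H j b1 b2).1]
      rw [← Ideal.mem_span_singleton, ← Ideal.Quotient.eq] at d2 d3 d4 d5 d6 ⊢
      rw [map_pow, map_one] at d2
      rw [map_mul, map_mul, d3, d4, d5, d6, ← map_mul, ← map_mul, ← mul_pow, ← mul_pow, map_pow,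
        map_pow, pow_eq_pow_mod _ d2, pow_eq_pow_mod (y j) d2, d1]
    rw [PadicInt.pow_p_dvd_int_iff, hq] at d7
    have t0 : (0 : ℤ) < t ^ m := pow_pos (by exact_mod_cast a1.pos) _
    have j0 : (0 : ℤ) < j ^ m := pow_pos (by exact_mod_cast b1.pos) _
    have := Int.eq_zero_of_abs_lt_dvd d7 (abs_lt.2 ⟨by omega, by omega⟩)
    exact Nat.pow_left_injective hm (by exact_mod_cast sub_eq_zero.1 this)
  · have := k1 g l hl
    rw [k2 l hl, Int.cast_zero, sub_zero] at this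
    simp only [one_mul]
    rw [cA, Nat.mul_div_cancel_left _ two_pos, ← pow_mul, ← pow_add]
    refine (pow_dvd_pow _ ?_).trans this
    rw [mul_add_one]
    omega

end Vale.Agent.P014U.Ir
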