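import Vale.Agent.P014U.Ir.Core
import Vale.Agent.P022.H790.L3.KW
import Vale.Agent.P022.H567.GchF
import Vale.Agent.P022.H220.Line
import Vale.Agent.P022.H20.Frob

/-!
# P014U.Ir: no `p`-adic character of `G_ℚ` takes Weil numbers of weight one as values (helper6)
-/

set_option linter.all false

open scoped Classical

noncomputable section

namespace Vale.Agent.P014U.Ir

open Finset NumberField Vale.Agent.P022 H853 Polynomial

/-- unramified at `l` -/
def Un {C : Type} [Monoid C] (θ : GQ →* C) (l : ℕ) : Prop := ∀ P : Ideal (𝓞 Qb), P.IsPrime →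
  (l : 𝓞 Qb) ∈ P → ∀ g : GQ, (∀ x : 𝓞 Qb, g • x - x ∈ P) → θ g = 1

/-- the theorem of Kronecker and Weber -/
theorem kwf {C : Type} [CommGroup C] [Finite C] [IsCyclic C] (θ : GQ →* C)
    (ho : IsOpen (θ.ker : Set GQ)) {s : ℕ} (hs : 2 ≤ s) (h : ∀ l : ℕ, l.Prime → s < l → Un θ l) :
    ∃ (N : ℕ) (_ : NeZero N), (∀ q : ℕ, q.Prime → q ∣ N → q ≤ s) ∧ ∀ g, cyc N g = 1 → θ g = 1 := by
  have : NeZero (Nat.card C) := ⟨Nat.card_pos.ne'⟩
  obtain ⟨ζ, hζ⟩ := HasEnoughRootsOfUnity.exists_primitiveRoot (AlgebraicClosure ℚ_[2]) (Nat.card C)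
  obtain ⟨E, _, _, _, _, i1, i2, i, w, hw⟩ := H220.EXT ℚ_[2] fun _ => ζ
  have h1 : IsPrimitiveRoot (w 0) (Nat.card C) :=
    IsPrimitiveRoot.of_map_of_injective (f := i) (by rwa [hw]) i.injective
  clear hw i i2 i1
  obtain ⟨u, hu⟩ := h1.isUnit (NeZero.ne _)
  rw [← hu, IsPrimitiveRoot.coe_units_iff] at h1
  let ι : C →* Eˣ := (Subgroup.zpowers u).subtype.comp (mulEquivOfCyclicCardEq
    (h1.eq_orderOf.trans (Nat.card_zpowers u).symm)).toMonoidHom
  have hι : Function.Injective ι := Subtype.val_injective.comp (MulEquiv.injective _)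
  have hc : Continuous (ι.comp θ) := by
    refine continuous_of_continuousAt_one _ ((continuousAt_const (y := (1 : Eˣ))).congr ?_)
    filter_upwards [ho.mem_nhds (one_mem _)] with g hg
    exact ((congrArg ι hg).trans (map_one ι)).symm
  obtain ⟨m, hm, h2, h3⟩ := H790.CT.kw P022.C.GCHF _ hc (range (s + 1)) fun l hl k P a b g c =>
    (congrArg ι (h l hl (by simpa using k) P a b g c)).trans (map_one ι)
  obtain ⟨c, hc⟩ := Finite.exists_min fun c => if c = 1 then 1 else ‖(ι c : E) - 1‖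
  obtain ⟨r, hr⟩ := h3 (if c = 1 then 1 else ‖(ι c : E) - 1‖) (by
    split_ifs with k
    · exact one_pos
    · exact norm_pos_iff.2 (sub_ne_zero.2 fun e => k (hι (Units.ext (by simpa using e)))))
  have : NeZero (2 ^ r * m) := ⟨mul_ne_zero (by positivity) hm.pos.ne'⟩
  refine ⟨2 ^ r * m, this, fun q hq k => ?_, fun g hg => by_contra fun k => ?_⟩
  · refine (hq.dvd_mul.1 k).elim (fun k => (Nat.le_of_dvd two_pos (hq.dvd_of_dvd_pow k)).trans hs)
      fun k => not_lt.1 fun k' => ?_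
    obtain ⟨P, a, b, g, c, d⟩ := h2 q hq k
    exact d ((congrArg ι (h q hq k' P a b g c)).trans (map_one ι))
  · have := hc (θ g)
    rw [if_neg k] at this
    exact absurd (hr _ rfl g hg) (not_lt.2 this)

theorem ex_fr {l : ℕ} (hl : l.Prime) : ∃ g, IsFrob l g := by
  obtain ⟨P, hP, h⟩ := H916.exists_prime hl
  obtain ⟨g, hg⟩ := H20.exists_frob (algebraMap ℚ Qb) hP hl h
  rw [H20.below_eq hl hP h, Ideal.absNorm_span_natCast, RingOfIntegers.rank, Module.finrank_self,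
    pow_one] at hg
  exact ⟨g, P, hP, h, hg⟩

theorem law {C : Type} [CommGroup C] [Finite C] [IsCyclic C] (θ : GQ →* C)
    (ho : IsOpen (θ.ker : Set GQ)) {s : ℕ} (hs : 2 ≤ s) (h : ∀ l : ℕ, l.Prime → s < l → Un θ l) :
    ∃ N : ℕ, N ≠ 0 ∧ (∀ q : ℕ, q.Prime → q ∣ N → q ≤ s) ∧ ∀ l l' : ℕ, l.Prime → s < l → l'.Prime →
      s < l' → ∀ g g', IsFrob l g → IsFrob l' g' → ∀ i j, l ^ i ≡ l' ^ j [MOD N] →
        θ g ^ i = θ g' ^ j := by
  obtain ⟨N, _, h1, h2⟩ := kwf θ ho hs h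
  refine ⟨N, NeZero.ne N, h1, fun l l' a b a' b' g g' c c' i j e => ?_⟩
  rw [← mul_inv_eq_one, ← map_pow, ← map_pow, ← map_inv, ← map_mul]
  refine h2 _ ?_
  rw [map_mul, map_inv, mul_inv_eq_one, map_pow, map_pow]
  refine Units.ext ?_
  rw [Units.val_pow_eq_pow_val, Units.val_pow_eq_pow_val,
    cyc_frob a (fun k => absurd (h1 l a k) (not_le.2 b)) c,
    cyc_frob a' (fun k => absurd (h1 l' a' k) (not_le.2 b')) c', ← Nat.cast_pow, ← Nat.cast_pow]
  exact (ZMod.natCast_eq_natCast_iff _ _ _).2 e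

theorem gen {p : ℕ} (hp : p.Prime) (h2 : p ≠ 2) {e u x : ℕ} (he : e ≠ 0) (hu : ¬ p ∣ u)
    (hx : x.Coprime p) (n : ℕ) :
    ∃ y, x ^ (p ^ e).totient ≡ (1 + p ^ e * u) ^ y [MOD p ^ (n + e)] := by
  have : NeZero (p ^ (n + e)) := ⟨pow_ne_zero _ hp.ne_zero⟩
  have := ZMod.isCyclic_units_of_prime_pow p hp h2 (n + e)
  have h3 : 3 ≤ p := lt_of_le_of_ne hp.two_le h2.symm
  have c : (1 + p ^ e * u).Coprime p := by
    obtain ⟨e, rfl⟩ := Nat.exists_eq_succ_of_ne_zero he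
    rw [pow_succ', mul_assoc, Nat.coprime_add_mul_left_left]
    exact Nat.coprime_one_left _
  let U := ZMod.unitOfCoprime _ (c.pow_right (n + e))
  have o : orderOf U = p ^ n := by
    rw [← orderOf_units, ← ZMod.orderOf_one_add_mul_prime_pow hp e he (by
      obtain ⟨e, rfl⟩ := Nat.exists_eq_succ_of_ne_zero he
      nlinarith) u (by exact_mod_cast hu) n]
    simp [U]
  have k : Subgroup.zpowers U = (powMonoidHom (p ^ n)).ker := Subgroup.eq_of_le_of_card_ge
    (Subgroup.zpowers_le_of_mem (by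
      rw [MonoidHom.mem_ker, powMonoidHom_apply, ← o, pow_orderOf_eq_one])) (by
      rw [IsCyclic.card_powMonoidHom_ker, Nat.card_zpowers, o]
      exact Nat.gcd_le_right _ (pow_pos hp.pos _))
  obtain ⟨y, hy⟩ : ZMod.unitOfCoprime x (hx.pow_right (n + e)) ^ (p ^ e).totient ∈
      Submonoid.powers U := by
    rw [mem_powers_iff_mem_zpowers, k, MonoidHom.mem_ker, powMonoidHom_apply, ← pow_mul,
      show (p ^ e).totient * p ^ n = (p ^ (n + e)).totient by
        obtain ⟨e, rfl⟩ := Nat.exists_eq_succ_of_ne_zero he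
        rw [Nat.add_succ, Nat.totient_prime_pow_succ hp, Nat.totient_prime_pow_succ hp]
        ring]
    exact ZMod.pow_totient _
  refine ⟨y, (ZMod.natCast_eq_natCast_iff _ _ _).1 ?_⟩
  rw [Nat.cast_pow, Nat.cast_pow]
  simpa only [U, Units.val_pow_eq_pow_val, ZMod.coe_unitOfCoprime] using
    (congrArg Units.val hy).symm

theorem lucas {R : Type} [CommRing R] {α β : R} {a : ℤ} {l : ℕ} (hl : 2 ≤ l) (h : |a| ≤ l)
    (e : α + β = a) (e' : α * β = l) (k : ℕ) :
    ∃ z : ℤ, α ^ k + β ^ k = z ∧ |z| ≤ l ^ (2 * k + 1) := by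
  have h2 : (2 : ℤ) ≤ l := by exact_mod_cast hl
  induction k using Nat.twoStepInduction with
  | zero => exact ⟨2, by norm_num, by simpa using h2⟩
  | one => exact ⟨a, by simpa using e, h.trans (le_self_pow₀ (by omega) (by norm_num))⟩
  | more k h0 h1 =>
    obtain ⟨z, z1, z2⟩ := h0
    obtain ⟨z', z3, z4⟩ := h1
    refine ⟨a * z' - l * z, ?_, (abs_sub _ _).trans ?_⟩
    · push_cast
      rw [← z1, ← z3, ← e, ← e']
      ring
    · rw [abs_mul, abs_mul, Nat.abs_cast]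
      have a1 := mul_le_mul h z4 (abs_nonneg _) (by positivity)
      have a2 := mul_le_mul_of_nonneg_left (z2.trans (pow_le_pow_right₀ (by omega)
        (show 2 * k + 1 ≤ 2 * (k + 1) + 1 by omega))) (show (0 : ℤ) ≤ l by positivity)
      have a3 := mul_le_mul_of_nonneg_right h2
        (show (0 : ℤ) ≤ l * l ^ (2 * (k + 1) + 1) by positivity)
      rw [show (l : ℤ) ^ (2 * (k + 2) + 1) = l * (l * l ^ (2 * (k + 1) + 1)) by ring]
      linarith

theorem indep {R : Type} [CommRing R] [IsDomain R] [CharZero R] {α : R} {a : ℤ} {l : ℕ}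
    (hl : l.Prime) (h : a ^ 2 ≤ 4 * l) (h0 : ¬ (l : ℤ) ∣ a) (e : α * (a - α) = l) {i j i' j' : ℕ}
    (k : α ^ i * (a - α) ^ j = α ^ i' * (a - α) ^ j') : i = i' ∧ j = j' := by
  have := Fact.mk hl
  have key : ∀ f : ℤ[X], aeval α f = 0 → ∀ ξ : ZMod l, ξ * (a - ξ) = 0 → aeval ξ f = 0 := by
    intro f hf ξ hξ
    have hm : (X ^ 2 - C a * X + C (l : ℤ) : ℤ[X]).Monic := by monicity!
    have e1 := modByMonic_add_div f (X ^ 2 - C a * X + C (l : ℤ))
    have e2 := eq_X_add_C_of_degree_le_one (Order.le_of_lt_succ ((degree_modByMonic_lt f hm).trans_le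
      (show _ ≤ Order.succ (1 : WithBot ℕ) from show _ ≤ (2 : WithBot ℕ) by compute_degree!)))
    generalize (f %ₘ _).coeff 1 = r at e2
    generalize (f %ₘ _).coeff 0 = t at e2
    rw [e2] at e1
    rw [← e1] at hf ⊢
    simp only [map_add, map_mul, map_sub, map_pow, aeval_X, aeval_C, eq_intCast, Int.cast_natCast,
      map_intCast, map_natCast] at hf ⊢
    generalize aeval α (f /ₘ _) = Q at hf
    generalize aeval ξ (f /ₘ _) = Q'
    have e3 : (r : R) * α + t = 0 := by linear_combination hf + Q * e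
    have e4 : t ^ 2 + a * r * t + l * r ^ 2 = 0 := Int.cast_injective (α := R) (by
      push_cast
      linear_combination (t - r * α + a * r) * e3 - r ^ 2 * e)
    have e5 : r = 0 := by_contra fun r0 => by
      have b1 : 2 * t + a * r = 0 := pow_eq_zero_iff two_ne_zero |>.1 (le_antisymm
        (by nlinarith [sq_nonneg r]) (sq_nonneg _))
      have b2 : a ^ 2 = 4 * l := mul_right_cancel₀ (pow_ne_zero 2 r0) (by
        linear_combination (a * r + 2 * t) * b1 - 4 * e4)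
      exact h0 ((Nat.prime_iff_prime_int.1 hl).dvd_of_dvd_pow (n := 2) ⟨4, by linarith⟩)
    have e6 : t = 0 := by simpa [e5] using e4
    rw [e5, e6, ZMod.natCast_self]
    push_cast
    linear_combination -Q' * hξ
  have a0 : (a : ZMod l) ≠ 0 := fun k => h0 ((ZMod.intCast_zmod_eq_zero_iff_dvd a l).1 k)
  have n0 : α * (a - α) ≠ 0 := e ▸ Nat.cast_ne_zero.2 hl.ne_zero
  have st : ∀ i j i' j' : ℕ, α ^ i * (a - α) ^ j = α ^ i' * (a - α) ^ j' →
      (i = 0 → i' = 0) ∧ (j = 0 → j' = 0) := fun i j i' j' k => by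
    have := key (X ^ i * (C a - X) ^ j - X ^ i' * (C a - X) ^ j') (by simpa [sub_eq_zero] using k)
    constructor <;> rintro rfl <;> by_contra n
    · simpa [zero_pow n, a0] using this 0 (zero_mul _)
    · simpa [zero_pow n, a0] using this a (by simp)
  have s1 : ∀ i j i' j' : ℕ, α ^ i * (a - α) ^ j = α ^ i' * (a - α) ^ j' →
      (i ≤ i' → i = i') ∧ (j ≤ j' → j = j') := fun i j i' j' k => by
    constructor <;> intro le <;> obtain ⟨d, rfl⟩ := Nat.exists_eq_add_of_le le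
    · rw [(st 0 j d j' (mul_left_cancel₀ (pow_ne_zero i (left_ne_zero_of_mul n0))
        (by linear_combination k))).1 rfl, add_zero]
    · rw [(st i 0 i' d (mul_left_cancel₀ (pow_ne_zero j (right_ne_zero_of_mul n0))
        (by linear_combination k))).2 rfl, add_zero]
  exact ⟨(le_total i i').elim (s1 _ _ _ _ k).1 fun le => ((s1 _ _ _ _ k.symm).1 le).symm,
    (le_total j j').elim (s1 _ _ _ _ k).2 fun le => ((s1 _ _ _ _ k.symm).2 le).symm⟩

variable {p : ℕ} [hp : Fact p.Prime]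

theorem red {T : ℕ} {x y : ℤ_[p]} :
    (p : ℤ_[p]) ^ T ∣ x - y ↔ PadicInt.toZModPow T x = PadicInt.toZModPow T y := by
  rw [← Ideal.mem_span_singleton, ← PadicInt.ker_toZModPow, RingHom.mem_ker, map_sub, sub_eq_zero]

/-- **no character has Weil numbers of weight one as Frobenius values** -/
theorem gal (h2 : p ≠ 2) (χ : GQ →* ℤ_[p]) (ho : ∀ T, IsOpen {g | (p : ℤ_[p]) ^ T ∣ χ g - 1})
    {s : ℕ} (hs : p + 4 ≤ s) (a : ℕ → ℤ) (H : ∀ l : ℕ, l.Prime → s < l → Un χ l ∧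
      a l ^ 2 ≤ 4 * l ∧ ∀ g, IsFrob l g → χ g * (a l - χ g) = l) : False := by
  let θ : ∀ T, GQ →* (ZMod (p ^ T))ˣ := fun T =>
    ((PadicInt.toZModPow T).toMonoidHom.comp χ).toHomUnits
  have hθ : ∀ T g, (θ T g : ZMod (p ^ T)) = PadicInt.toZModPow T (χ g) := fun _ _ => rfl
  have K := fun T => @law _ _ _ (ZMod.isCyclic_units_of_prime_pow p hp.out h2 T) (θ T)
    ((congrArg IsOpen (Set.ext fun g => red.trans (by
      rw [map_one]; exact ⟨fun k => Units.ext k, fun k => congrArg Units.val k⟩))).mp (ho T)) s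
    (by omega) fun l hl k P b c g d => Units.ext (by
      rw [hθ, (H l hl k).1 P b c g d, map_one, Units.val_one])
  choose! fr hfr using fun (l : ℕ) (hl : l.Prime) => ex_fr hl
  obtain ⟨N₁, n1, -, k1⟩ := K 1
  obtain ⟨l₀, p0, s0, m0⟩ := Nat.exists_prime_gt_modEq_one s (mul_ne_zero n1 hp.out.ne_zero)
  obtain ⟨-, b1, b2⟩ := H l₀ p0 s0
  replace b2 := b2 _ (hfr l₀ p0)
  have c1 : PadicInt.toZModPow 1 (χ (fr l₀)) = 1 := by
    simpa only [pow_one, pow_zero, hθ, Units.val_one] using congrArg Units.val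
      (k1 l₀ l₀ p0 s0 p0 s0 _ _ (hfr l₀ p0) (hfr l₀ p0) 1 0 (by simpa using m0.of_mul_right p))
  have c2 : p ∣ l₀ - 1 := (Nat.modEq_iff_dvd' p0.one_lt.le).1 (m0.of_mul_left N₁).symm
  have c3 : PadicInt.toZModPow 1 ((a l₀ : ℤ_[p]) - χ (fr l₀)) = 1 := by
    have := congrArg (PadicInt.toZModPow 1) b2
    rw [map_mul, c1, one_mul, map_natCast] at this
    exact this.trans (((ZMod.natCast_eq_natCast_iff _ 1 _).2
      (by simpa using m0.of_mul_left N₁)).trans Nat.cast_one)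
  have c4 : ¬ (l₀ : ℤ) ∣ a l₀ := fun k => by
    have l5 : (5 : ℤ) ≤ l₀ := by omega
    rw [Int.eq_zero_of_abs_lt_dvd k (abs_lt_of_sq_lt_sq (by nlinarith) (by omega)), map_sub, c1,
      Int.cast_zero, map_zero] at c3
    have := (ZMod.natCast_eq_zero_iff 2 (p ^ 1)).1 (by linear_combination -c3)
    exact h2 ((Nat.prime_dvd_prime_iff_eq hp.out Nat.prime_two).1 (by simpa using this))
  obtain ⟨e, u, hu, e1⟩ := Nat.exists_eq_pow_mul_and_not_dvd
    (Nat.sub_ne_zero_of_lt p0.one_lt) p hp.out.ne_one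
  have e0 : e ≠ 0 := by
    rintro rfl
    exact hu (by simpa [e1] using c2)
  have e2 : 1 + p ^ e * u = l₀ := by have := p0.one_lt; omega
  obtain ⟨m₀, hm⟩ : ∃ m₀, m₀ = (p - 1) * ∏ q ∈ Icc 2 s, (q - 1) := ⟨_, rfl⟩
  have m1 : m₀ ≠ 0 := hm ▸ mul_ne_zero (Nat.sub_ne_zero_of_lt hp.out.one_lt)
    (prod_ne_zero_iff.2 fun q hq => Nat.sub_ne_zero_of_lt (mem_Icc.1 hq).1)
  choose! z z1 z2 using fun (l : ℕ) (hl : l.Prime) (k : s < l) => lucas hl.two_le
    (abs_le_of_sq_le_sq ((H l hl k).2.1.trans (by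
      have : (4 : ℤ) ≤ l := by omega
      nlinarith)) (by positivity)) (add_sub_cancel _ _) ((H l hl k).2.2 _ (hfr l hl))
    ((p ^ e).totient * m₀)
  refine core h2 (V := χ (fr l₀) ^ m₀) (W := (a l₀ - χ (fr l₀)) ^ m₀) (s₀ := s)
    (m := (p ^ e).totient * m₀) (M := 2 * ((p ^ e).totient * m₀) + 1)
    (v := fun l => χ (fr l) ^ ((p ^ e).totient * m₀))
    (w := fun l => (a l - χ (fr l)) ^ ((p ^ e).totient * m₀)) (z := z) ?_ ?_ (fun i j i' j' k => ?_)
    (mul_ne_zero (Nat.totient_pos.2 (pow_pos hp.out.pos e)).ne' m1) (by omega) fun l hl k =>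
      ⟨by rw [← mul_pow, (H l hl k).2.2 _ (hfr l hl)], z1 l hl k, z2 l hl k, fun T => ?_⟩
  · rw [← pow_one (p : ℤ_[p]), red, map_pow, c1, one_pow, map_one]
  · rw [← pow_one (p : ℤ_[p]), red, map_pow, c3, one_pow, map_one]
  · simp only [← pow_mul] at k
    simpa only [mul_right_inj' m1] using indep p0 b1 c4 b2 k
  obtain ⟨N, n0, k2, k3⟩ := K T
  obtain ⟨r, N', hN, rfl⟩ := Nat.exists_eq_pow_mul_and_not_dvd n0 p hp.out.ne_one
  have co : ∀ l : ℕ, l.Prime → s < l → l.Coprime N' := fun l hl k =>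
    (Nat.Prime.coprime_iff_not_dvd hl).2 fun d => absurd (k2 l hl (d.mul_left _)) (not_le.2 k)
  have cp : (p ^ T).Coprime N' := ((Nat.Prime.coprime_iff_not_dvd hp.out).2 hN).pow_left T
  obtain ⟨y, hy⟩ := gen hp.out h2 e0 hu ((Nat.coprime_primes hl hp.out).2 (by omega)) (r + T)
  rw [e2] at hy
  have d1 := k3 l l₀ hl k p0 s0 _ _ (hfr l hl) (hfr l₀ p0) ((p ^ e).totient * N'.totient)
    (y * N'.totient) (by
      rw [pow_mul, pow_mul]
      exact (Nat.modEq_and_modEq_iff_modEq_mul (((Nat.Prime.coprime_iff_not_dvd hp.out).2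
        hN).pow_left r)).1 ⟨(hy.of_dvd (pow_dvd_pow _ (by omega))).pow _,
        (Nat.ModEq.pow_totient ((co l hl k).pow_left _)).trans
          (Nat.ModEq.pow_totient ((co l₀ p0 s0).pow_left _)).symm⟩)
  rw [pow_mul, pow_mul, ← div_eq_one, ← div_pow, ← orderOf_dvd_iff_pow_eq_one] at d1
  have d2 : θ T (fr l) ^ ((p ^ e).totient * m₀) = (θ T (fr l₀) ^ m₀) ^ y := by
    rw [← pow_mul, mul_comm m₀, pow_mul, pow_mul, ← div_eq_one, ← div_pow,
      ← orderOf_dvd_iff_pow_eq_one]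
    generalize θ T (fr l) ^ (p ^ e).totient / θ T (fr l₀) ^ y = t at d1 ⊢
    have d3 : orderOf t ∣ m₀ * N' := d1.trans (by
      rw [Nat.totient_eq_div_primeFactors_mul, mul_comm, hm]
      exact mul_dvd_mul ((prod_dvd_prod_of_subset _ _ _ fun q hq => mem_Icc.2
        ⟨(Nat.prime_of_mem_primeFactors hq).two_le, k2 q (Nat.prime_of_mem_primeFactors hq)
          ((Nat.dvd_of_mem_primeFactors hq).mul_left _)⟩).mul_left _)
        (Nat.div_dvd_of_dvd (Nat.prod_primeFactors_dvd _)))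
    have d4 : orderOf t ∣ m₀ * p ^ T := (orderOf_dvd_iff_pow_eq_one.2 (ZMod.pow_totient t)).trans (by
      rcases T with _ | T
      · simp
      · rw [Nat.totient_prime_pow_succ hp.out, mul_comm, hm]
        exact mul_dvd_mul (dvd_mul_right _ _) (pow_dvd_pow _ T.le_succ))
    simpa only [Nat.gcd_mul_left, cp.gcd_eq_one, mul_one] using Nat.dvd_gcd d4 d3
  have d5 := congrArg Units.val d2
  simp only [Units.val_pow_eq_pow_val] at d5
  refine ⟨y, red.2 (by simpa only [hθ, map_pow] using d5), red.2 ?_⟩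
  refine (θ T (fr l) ^ ((p ^ e).totient * m₀)).mul_right_inj.1 ?_
  conv_rhs => rw [d2]
  simp only [Units.val_pow_eq_pow_val, hθ, map_pow, ← mul_pow, ← map_mul, b2,
    (H l hl k).2.2 _ (hfr l hl), map_natCast]
  rw [← pow_mul, mul_comm m₀, pow_mul, pow_mul, ← Nat.cast_pow, ← Nat.cast_pow l₀,
    (ZMod.natCast_eq_natCast_iff _ _ _).2 (hy.of_dvd (pow_dvd_pow _ (by omega)))]

end Vale.Agent.P014U.Ir
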